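import Vale.Agent.P181.RG.H968.Core
import Vale.Agent.P181.RV.Defs

set_option autoImplicit false

/-!
# P181, RV: `CorV` from the blocks
-/

namespace Vale.Agent.P181.RV.H968

open Finset Vale.Agent.P181 Vale.Agent.P181.H280 Vale.Agent.P181.H463
open Vale.Agent.P181.RG (MatRG DesRG HalfRG RDes)
open Vale.Agent.P181.RG.H968 (bal bal_le bal_le_of sum_bal sum_cls sum_top bal_eq)

/-- **[COREV]** -/
theorem corV (hMat : MatRG) (hDes : DesRG) (hHalf : HalfRG) (hPar : ParV) (hNum : NumV)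
    (hTop : TopV) (hUp : TL.UpB) : CorV := by
  intro q hq
  obtain ⟨a₁, hPar⟩ := hPar
  obtain ⟨a₂, hNum⟩ := hNum (2 * q) (by omega)
  refine ⟨max a₁ a₂, ?_⟩
  intro a b X m k lam ha hlam hsum hna hqX hXa hqb hbX hm hmn hmX hrow
  have ha1 : a₁ ≤ a := le_trans (le_max_left _ _) ha
  have ha2 : a₂ ≤ a := le_trans (le_max_right _ _) ha
  have hX : 2 ≤ X := by omega
  have hX0 : 0 < X := by omega
  have hX40 : X ^ 40 ≤ a := le_trans (Nat.pow_le_pow_right hX0 (by omega)) hXa
  have ha0 : 0 < a := lt_of_lt_of_le (by positivity) hXa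
  have h4q : 4 * q ≤ a := by
    calc 4 * q ≤ (2 * q) * (2 * q) := by nlinarith
      _ ≤ X * X := Nat.mul_le_mul hqX hqX
      _ = X ^ 2 := by ring
      _ ≤ X ^ (200 * q) := Nat.pow_le_pow_right hX0 (by omega)
      _ ≤ a := hXa
  have hab : a ≤ b := by
    by_contra hcon
    have h1 : q * b ≤ q * a := Nat.mul_le_mul_left _ (by omega)
    have h2 : (q + 1) * a = q * a + a := by ring
    omega
  obtain ⟨u, D, R, f₀, F₀, T, s, N, hu, hs, huD, hub, hN1, hN2, hF, hmf, huT, hmf8, hus, hTf, hXN,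
    hbu, hubb⟩ := hPar a b X m ha1 hX hX40 hab hbX hm hmX
  have hqu : (2 * q + 1) * a ≤ 2 * q * u := by
    have h1 : 2 * q * (b - u) ≤ X * (b - u) := Nat.mul_le_mul_right _ hqX
    have h2 : 2 * q * (b - u) + 2 * q * u = 2 * q * b := by
      rw [← Nat.mul_add, Nat.sub_add_cancel hubb]
    have h3 : (q + 1) * a * 2 = (2 * q + 1) * a + a := by ring
    have h4 : q * b * 2 = 2 * q * b := by ring
    omega
  have hau : a + 2 ≤ u := by
    have h1 : 2 * q * (a + 2) ≤ 2 * q * u := by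
      have h2 : 2 * q * (a + 2) = 2 * q * a + 4 * q := by ring
      have h3 : (2 * q + 1) * a = 2 * q * a + a := by ring
      omega
    exact Nat.le_of_mul_le_mul_left h1 (by omega)
  -- rows
  have hr1 : ∀ i : Fin (k + 2), (i : ℕ) < m → 2 * N ≤ lam i := by
    intro i hi
    have h1 := (hrow i hi).1
    have h2 : X * (2 * N) ≤ X * lam i := by
      calc X * (2 * N) = 2 * X * N := by ring
        _ ≤ a ^ 2 := hXN
        _ ≤ X * lam i := h1
    exact Nat.le_of_mul_le_mul_left h2 hX0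
  have hr2 : ∀ i : Fin (k + 2), (i : ℕ) < m → ∀ j : Fin (k + 2), m ≤ (j : ℕ) →
      2 * N + lam j ≤ lam i := by
    intro i hi j hj
    have h1 := (hrow i hi).2 j hj
    have h2 : X * (2 * N + lam j) ≤ X * lam i := by
      calc X * (2 * N + lam j) = 2 * X * N + X * lam j := by ring
        _ ≤ a ^ 2 + X * lam j := Nat.add_le_add_right hXN _
        _ ≤ X * lam i := h1
    exact Nat.le_of_mul_le_mul_left h2 hX0
  obtain ⟨η, hηd⟩ : ∃ η : Fin (k + 2) → ℕ, ∀ i, η i = lam i - if (i : ℕ) < m then N else 0 :=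
    ⟨_, fun _ => rfl⟩
  have hle : ∀ i : Fin (k + 2), (if (i : ℕ) < m then N else 0) ≤ lam i := by
    intro i
    split_ifs with h
    · have := hr1 i h
      omega
    · exact Nat.zero_le _
  have hηl : ∀ i : Fin (k + 2), (if (i : ℕ) < m then N else 0) + η i = lam i := by
    intro i
    have := hle i
    rw [hηd]
    omega
  have hη : Antitone η := by
    intro i j hij
    have h1 := hlam hij
    rw [hηd, hηd]
    have hij' : (i : ℕ) ≤ (j : ℕ) := hij
    by_cases hj : (j : ℕ) < m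
    · rw [if_pos hj, if_pos (by omega)]
      omega
    · by_cases hi : (i : ℕ) < m
      · rw [if_neg hj, if_pos hi]
        have := hr2 i hi j (by omega)
        omega
      · rw [if_neg hj, if_neg hi]
        omega
  obtain ⟨S, hS⟩ : ∃ S, S = ∑ i, η i := ⟨_, rfl⟩
  have hSN : S + m * N = a * b := by
    rw [← hsum, ← sum_top hmn N, hS, ← Finset.sum_add_distrib]
    exact Finset.sum_congr rfl fun i _ => by
      rw [← hηl i, Nat.add_comm]
  have hmf0 : m ≤ f₀ := by omega
  have hcls := sum_cls hmf0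
  have heq := bal_eq hcls hub hN2 hSN
  -- the degrees
  have h3F : 3 * (u * (2 * D + s + T)) ≤ m * F₀ := Nat.mul_le_mul hm hF
  have h3u : u * (2 * D + s + 2 * T) ≤ 3 * (u * (2 * D + s + T)) := by
    calc u * (2 * D + s + 2 * T) ≤ u * (3 * (2 * D + s + T)) :=
          Nat.mul_le_mul_left _ (by omega)
      _ = 3 * (u * (2 * D + s + T)) := by ring
  have hSu : S + u * (2 * D + s + 2 * T) ≤ u * a := by
    have h4 : 0 ≤ a * (m * (m - 1)) := Nat.zero_le _
    omega
  have hc0 : S ≤ u * (a - (2 * D + s + 2 * T)) := by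
    rw [Nat.mul_sub]
    omega
  have hca : 2 * D + s + 2 * T ≤ a :=
    Nat.le_of_mul_le_mul_left (by omega : u * (2 * D + s + 2 * T) ≤ u * a) hu
  have hd : ∀ i, bal u S i ≤ a - (2 * D + s + 2 * T) := bal_le_of hc0
  have hda : ∀ i, bal u S i ≤ a := fun i => (hd i).trans (Nat.sub_le _ _)
  have hes : (∑ i, (a - bal u S i)) + S = u * a := by
    have h1 : (∑ i, (a - bal u S i)) + ∑ i, bal u S i = u * a := by
      rw [← Finset.sum_add_distrib, Finset.sum_congr rfl fun i _ => Nat.sub_add_cancel (hda i),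
        Finset.sum_const, Finset.card_univ, Fintype.card_fin, smul_eq_mul]
    rwa [sum_bal (by omega) S] at h1
  have hdes : RDes u m D R a (fun r => f₀ - r) (fun i => a - bal u S i) := by
    refine hDes u m D R a f₀ F₀ T s _ hm hu hs huD (by rw [← hN1, hN2]) ?_ ?_ hF hmf huT hmf8
      hus hTf
    · omega
    · intro i
      have := hd i
      omega
  have hmat := hMat (k + 2) a b u m D R (fun r => f₀ - r) lam η (bal u S) hm hmn huD hub hη
    (bal_le u S) (by rw [← hS]; exact sum_bal (by omega) S) hda hdes (by rw [← hN1]; exact hηl)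
  rw [← hS] at hmat
  -- the length `y`
  obtain ⟨y, hy1, hy2⟩ : ∃ y : ℕ, a ^ 2 ≤ 2 * X * y ∧ ∀ z : ℕ, a ^ 2 ≤ 2 * X * z → y ≤ z := by
    have hex : ∃ y : ℕ, a ^ 2 ≤ 2 * X * y :=
      ⟨a ^ 2, by
        calc a ^ 2 = 1 * a ^ 2 := (one_mul _).symm
          _ ≤ 2 * X * a ^ 2 := Nat.mul_le_mul_right _ (by omega)⟩
    classical
    exact ⟨Nat.find hex, Nat.find_spec hex, fun z hz => Nat.find_min' hex hz⟩
  have hX2N : 2 * X * N = 2 * (X * N) := by ring
  have hyr : ∀ i : Fin (k + 2), (i : ℕ) < m → y ≤ η i ∧ ∀ j : Fin (k + 2), m ≤ (j : ℕ) →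
      y + η j ≤ η i := by
    intro i hi
    have e1 := hηl i
    rw [if_pos hi] at e1
    refine ⟨?_, ?_⟩
    · apply hy2
      have h1 := (hrow i hi).1
      rw [← e1, Nat.mul_add] at h1
      have h4 : 2 * X * η i = 2 * (X * η i) := by ring
      rw [h4]
      rw [hX2N] at hXN
      omega
    · intro j hj
      have e2 := hηl j
      rw [if_neg (by omega), Nat.zero_add] at e2
      have h1 := (hrow i hi).2 j hj
      have h0 := hr2 i hi j hj
      have h5 : y ≤ η i - η j := by
        apply hy2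
        rw [← e1, ← e2, Nat.mul_add] at h1
        have h4 : 2 * X * (η i - η j) = 2 * (X * (η i - η j)) := by ring
        rw [h4, Nat.mul_sub]
        rw [hX2N] at hXN
        omega
      omega
  -- the rows from row three on
  have hη2 : Antitone fun i : Fin k => η i.succ.succ := fun i j hij =>
    hη (Fin.succ_le_succ_iff.2 (Fin.succ_le_succ_iff.2 hij))
  have hlam2 : Antitone fun i : Fin k => lam i.succ.succ := fun i j hij =>
    hlam (Fin.succ_le_succ_iff.2 (Fin.succ_le_succ_iff.2 hij))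
  have v2 : ∀ i : Fin k, ((i.succ.succ : Fin (k + 2)) : ℕ) = (i : ℕ) + 2 := fun i => rfl
  have hhalf := hHalf k (m - 2) a N (fun i => lam i.succ.succ) (fun i => η i.succ.succ) hη2
    (by omega) (by omega) (fun i => by
      show lam i.succ.succ = η i.succ.succ + _
      rw [← hηl i.succ.succ, v2, Nat.add_comm]
      congr 1
      by_cases h : (i : ℕ) < m - 2
      · rw [if_pos h, if_pos (by omega)]
      · rw [if_neg h, if_neg (by omega)]) (by
    intro i hi
    have hi' : ((i.succ.succ : Fin (k + 2)) : ℕ) < m := by rw [v2]; omega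
    have h1 := hr1 _ hi'
    have e1 := hηl i.succ.succ
    rw [if_pos hi'] at e1
    refine ⟨?_, ?_⟩
    · show N ≤ η i.succ.succ
      omega
    · intro j hj
      have hj' : m ≤ ((j.succ.succ : Fin (k + 2)) : ℕ) := by rw [v2]; omega
      have h2 := hr2 _ hi' _ hj'
      have e2 := hηl j.succ.succ
      rw [if_neg (by omega)] at e2
      show N + η j.succ.succ ≤ η i.succ.succ
      omega)
  have hgrow := Vale.Agent.P181.H539.gt_growth_rows (n := k) (a := a) (N := u - 2) (l := m - 2)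
    (n0 := y) (by omega) ha0 (by omega) hη2 (by omega) (fun i hi =>
      (hyr i.succ.succ (by rw [v2]; omega)).1)
  have htop := hTop k m u y η hη (by omega) (by omega) (by omega) (fun i hi => hyr i (by omega))
  have hnum := hNum a b X m u S y ha2 hX (by
    calc X ^ (100 * (2 * q)) = X ^ (200 * q) := by congr 1; ring
      _ ≤ a := hXa) hab hbX hm hmX hqu hubb (by omega) hy1
  have hup : (plethMult a b (k + 2) lam : ℝ) ≤ ((a + b).choose a : ℝ) *
      (2 ^ (m * a) * (gt k a (fun i => η i.succ.succ) : ℝ)) := by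
    have h1 := hUp a b k lam
    have h2 := Vale.Agent.P181.H539.finrank_HW_le_gt k a hlam2
    have h3 : gt k a (fun i => lam i.succ.succ) ≤
        2 ^ (m * a) * gt k a (fun i => η i.succ.succ) :=
      hhalf.trans (Nat.mul_le_mul_right _ (Nat.pow_le_pow_right (by omega)
        (Nat.mul_le_mul_right _ (by omega))))
    have h4 := h1.trans (Nat.mul_le_mul_left _ (h2.trans h3))
    exact_mod_cast h4
  have hmat' : (gt (k + 2) u η : ℝ) ≤ ((S + u - 1).choose (u - 1) : ℝ) *
      ((u.factorial : ℝ) * (plethMult b a (k + 2) lam : ℝ)) := by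
    exact_mod_cast hmat
  have htop' : (y : ℝ) ^ (2 * (u - m)) * (gt k (u - 2) (fun i => η i.succ.succ) : ℝ) ≤
      (u.factorial : ℝ) ^ 2 * (gt (k + 2) u η : ℝ) := by
    exact_mod_cast htop
  have hgrow' : (gt k a (fun i => η i.succ.succ) : ℝ) *
      (1 + (y : ℝ) / u) ^ ((m - 2) * (u - 2 - a)) ≤
      (gt k (u - 2) (fun i => η i.succ.succ) : ℝ) := by
    refine le_trans (mul_le_mul_of_nonneg_left ?_ (Nat.cast_nonneg _)) hgrow
    refine pow_le_pow_left₀ (by positivity) ?_ _
    have h1 : (0 : ℝ) < ((u - 2 : ℕ) : ℝ) := by exact_mod_cast (by omega : 0 < u - 2)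
    have h2 : ((u - 2 : ℕ) : ℝ) ≤ u := by exact_mod_cast (by omega : u - 2 ≤ u)
    gcongr
  have hpos : (0 : ℝ) < ((S + u - 1).choose (u - 1) : ℝ) * (u.factorial : ℝ) := by
    have h1 : 0 < (S + u - 1).choose (u - 1) := Nat.choose_pos (by omega)
    have h2 := Nat.factorial_pos u
    positivity
  have hu2 : (0 : ℝ) < (u.factorial : ℝ) ^ 2 := by
    have h2 := Nat.factorial_pos u
    positivity
  obtain ⟨P, hP⟩ : ∃ P : ℝ, P = ((S + u - 1).choose (u - 1) : ℝ) * (u.factorial : ℝ) :=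
    ⟨_, rfl⟩
  obtain ⟨Q, hQ⟩ : ∃ Q : ℝ, Q = (u.factorial : ℝ) ^ 2 := ⟨_, rfl⟩
  rw [← hP, ← hQ] at hnum
  rw [← hP] at hpos
  rw [← hQ] at hu2 htop'
  have hmat'' : (gt (k + 2) u η : ℝ) ≤ P * (plethMult b a (k + 2) lam : ℝ) := by
    rw [hP, mul_assoc]
    exact hmat'
  have key : (P * Q) * (plethMult a b (k + 2) lam : ℝ) ≤
      (P * Q) * (plethMult b a (k + 2) lam : ℝ) := by
    calc (P * Q) * (plethMult a b (k + 2) lam : ℝ)
        ≤ (P * Q) * (((a + b).choose a : ℝ) *
          (2 ^ (m * a) * (gt k a (fun i => η i.succ.succ) : ℝ))) :=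
          mul_le_mul_of_nonneg_left hup (mul_pos hpos hu2).le
      _ = (gt k a (fun i => η i.succ.succ) : ℝ) *
          (((a + b).choose a : ℝ) * 2 ^ (m * a) * P * Q) := by ring
      _ ≤ (gt k a (fun i => η i.succ.succ) : ℝ) *
          ((1 + (y : ℝ) / u) ^ ((m - 2) * (u - 2 - a)) * (y : ℝ) ^ (2 * (u - m))) :=
          mul_le_mul_of_nonneg_left hnum (Nat.cast_nonneg _)
      _ = (y : ℝ) ^ (2 * (u - m)) * ((gt k a (fun i => η i.succ.succ) : ℝ) *
          (1 + (y : ℝ) / u) ^ ((m - 2) * (u - 2 - a))) := by ring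
      _ ≤ (y : ℝ) ^ (2 * (u - m)) * (gt k (u - 2) (fun i => η i.succ.succ) : ℝ) :=
          mul_le_mul_of_nonneg_left hgrow' (by positivity)
      _ ≤ Q * (gt (k + 2) u η : ℝ) := htop'
      _ ≤ Q * (P * (plethMult b a (k + 2) lam : ℝ)) := mul_le_mul_of_nonneg_left hmat'' hu2.le
      _ = _ := by ring
  exact_mod_cast le_of_mul_le_mul_left key (mul_pos hpos hu2)

end Vale.Agent.P181.RV.H968
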